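import Vale.Agent.P181.TRI.Defs

set_option autoImplicit false

/-!
# P181, TRI, block T3: tensor powers of an injective relation
-/

namespace Vale.Agent.P181.TRI.H487

open Finset Function Vale.Agent.P181.TRI

/-- averaging over one coordinate which does not matter -/
theorem sum_update {E G' : Type} [Fintype E] [DecidableEq E] [Fintype G'] (e₀ : E)
    (K : (E → G') → ℂ) :
    ∑ w₀ : G', ∑ w : E → G', K (update w e₀ w₀) = (Fintype.card G' : ℂ) * ∑ w, K w := by
  rw [← Fintype.sum_prod_type' (fun (w₀ : G') (w : E → G') => K (update w e₀ w₀))]
  have h : ∑ p : G' × (E → G'), K (update p.2 e₀ p.1) = ∑ p : G' × (E → G'), K p.2 := by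
    let T : G' × (E → G') → G' × (E → G') := fun p => (p.2 e₀, update p.2 e₀ p.1)
    have hT : Function.Involutive T := by
      rintro ⟨a, w⟩
      change ((update w e₀ a) e₀, update (update w e₀ a) e₀ (w e₀)) = (a, w)
      rw [update_self, update_idem, update_eq_self]
    exact Fintype.sum_equiv hT.toPerm _ _ fun p => rfl
  rw [h, Fintype.sum_prod_type' (fun (_ : G') (w : E → G') => K w), Finset.sum_const,
    Finset.card_univ, nsmul_eq_mul]

theorem tensor : TensorStmt := by
  intro E G G' _ _ _ _ _ H φ hφ F hF hrel
  have hcard : (Fintype.card G' : ℂ) ≠ 0 := Nat.cast_ne_zero.2 Fintype.card_ne_zero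
  have key : ∀ (S : Finset E) (τ : E → G),
      ∑ w : E → G', F (fun e => if e ∈ S then τ e else τ e * φ (w e)) = 0 := by
    intro S
    induction S using Finset.induction_on with
    | empty =>
      intro τ
      simpa using hrel τ
    | insert e₀ S he ih =>
      intro τ
      let f : G → ℂ := fun g =>
        ∑ w : E → G', F (update (fun e => if e ∈ S then τ e else τ e * φ (w e)) e₀ g)
      have h1 : ∀ g, f g = 0 := by
        refine hφ f ?_ ?_
        · intro g h hh
          refine Finset.sum_congr rfl fun w _ => ?_
          have h2 := hF (update (fun e => if e ∈ S then τ e else τ e * φ (w e)) e₀ g) e₀ h hh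
          rw [update_self, update_idem] at h2
          exact h2
        · intro g
          have h2 := sum_update (G' := G') e₀ fun w =>
            F (fun e => if e ∈ S then (update τ e₀ g) e else (update τ e₀ g) e * φ (w e))
          rw [ih (update τ e₀ g), mul_zero] at h2
          rw [← h2]
          refine Finset.sum_congr rfl fun w₀ _ => Finset.sum_congr rfl fun w _ => ?_
          congr 1
          funext e
          by_cases h3 : e = e₀
          · subst h3
            rw [update_self, if_neg he, update_self, update_self]
          · rw [update_of_ne h3, update_of_ne h3, update_of_ne h3]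
      have h2 := h1 (τ e₀)
      rw [← h2]
      refine Finset.sum_congr rfl fun w _ => ?_
      congr 1
      funext e
      by_cases h3 : e = e₀
      · subst h3
        rw [update_self, if_pos (Finset.mem_insert_self _ _)]
      · rw [update_of_ne h3]
        by_cases h4 : e ∈ S
        · rw [if_pos h4, if_pos (Finset.mem_insert_of_mem h4)]
        · rw [if_neg h4, if_neg fun h => (Finset.mem_insert.1 h).elim h3 h4]
  intro τ
  have h1 := key Finset.univ τ
  simp only [Finset.mem_univ, if_true] at h1
  rw [Finset.sum_const, Finset.card_univ, nsmul_eq_mul] at h1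
  refine (mul_eq_zero.1 h1).resolve_left ?_
  exact Nat.cast_ne_zero.2 Fintype.card_ne_zero

end Vale.Agent.P181.TRI.H487
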